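import Vale.Agent.P235.K5.GX.H696.G3Lit
import Vale.Agent.P235.K5.GX.H352.Centre

/-!
P235, line GX, row [G3] (helper696): `G3Stmt` without hypothesis, by helper352's centre lemma.
-/

set_option autoImplicit false

namespace Vale.Agent.P235.K5.GX.H696

open SimpleGraph Vale.Agent.P235 Vale.Agent.P235.H134 Vale.Agent.P235.H56 Vale.Agent.P235.K5

theorem gp_add {V : Type} {d : V → V → ℝ} (hd : IsMet d) (R : Fin 3 → V) :
    ∀ i j, i ≠ j → gp d R i + gp d R j = d (R i) (R j) := by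
  have g0 : gp d R 0 = (d (R 0) (R 1) + d (R 0) (R 2) - d (R 1) (R 2)) / 2 := rfl
  have g1 : gp d R 1 = (d (R 1) (R 2) + d (R 1) (R 0) - d (R 2) (R 0)) / 2 := rfl
  have g2 : gp d R 2 = (d (R 2) (R 0) + d (R 2) (R 1) - d (R 0) (R 1)) / 2 := rfl
  have s10 := hd.symm (R 1) (R 0)
  have s20 := hd.symm (R 2) (R 0)
  have s21 := hd.symm (R 2) (R 1)
  have h01 : gp d R 0 + gp d R 1 = d (R 0) (R 1) := by rw [g0, g1]; linarith
  have h02 : gp d R 0 + gp d R 2 = d (R 0) (R 2) := by rw [g0, g2]; linarith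
  have h12 : gp d R 1 + gp d R 2 = d (R 1) (R 2) := by rw [g1, g2]; linarith
  intro i j hij
  fin_cases i <;> fin_cases j
  · exact (hij rfl).elim
  · exact h01
  · exact h02
  · exact (add_comm _ _).trans (h01.trans s10.symm)
  · exact (hij rfl).elim
  · exact h12
  · exact (add_comm _ _).trans (h02.trans s20.symm)
  · exact (add_comm _ _).trans (h12.trans s21.symm)
  · exact (hij rfl).elim

/-- [G1], the literal (helper352's `centre_m`) -/
theorem centreM : CentreMStmt := by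
  intro m V _ G d hd hG R hR hno
  obtain ⟨M, h1, h2, h3⟩ := H352.centre_m hd hG R hR m hno (gp d R) (gp_add hd R)
  refine ⟨M, h1, h2, fun x => ?_⟩
  obtain ⟨i, hi⟩ := Finite.exists_max (fun i : Fin 3 => d x (R i) - gp d R i)
  obtain ⟨q, hq, hq'⟩ := h3 x (d x (R i) - gp d R i) (fun j => by linarith [hi j])
  exact ⟨q, hq, i, hq'⟩

/-- **[G3]** -/
theorem g3Full : G3Stmt := g3Stmt centreM

end Vale.Agent.P235.K5.GX.H696
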