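import Vale.Agent.P235.K5.SX.H696.S1

/-!
P235, line GX (helper473, board #18449), row [G3] (helper696): the statement [S1] of line SX for
pieces without `K_{3,m}` minor, with marks.
-/

set_option autoImplicit false

namespace Vale.Agent.P235.K5.GX.H696

open SimpleGraph Vale.Agent.P235 Vale.Agent.P235.H134 Vale.Agent.P235.H56 Vale.Agent.P235.K5
open Vale.Agent.P235.K5.SX.H696
open Filter Topology

/-- the conclusion of [G1] for one metric -/
def Cen {V : Type} (m : ℕ) (d : V → V → ℝ) (R : Fin 3 → V) : Prop :=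
  ∃ M : Finset V, M.card ≤ m + 2 ∧ (∀ i, R i ∈ M) ∧
    ∀ x, ∃ p ∈ M, ∃ i, d x p ≤ 6 * (d x (R i) - gp d R i)

/-- the conclusion of [G2] for one metric -/
def Iso {V : Type} (c : ℝ) (d : V → V → ℝ) (R : Fin 3 → V) : Prop :=
  ∃ F : V → V → ℝ, IsL1 F ∧ (∀ i j, F (R i) (R j) = d (R i) (R j)) ∧ (∀ x y, F x y ≤ d x y) ∧
    ∀ x y i, c / 6 * min (d x y) (d x (R i) - gp d R i) ≤ F x y

/-- the alternatives for a triple given as a map -/
def Alt {V : Type} (k η : ℝ) (d F : V → V → ℝ) (R : Fin 3 → V) (M : Set V) (x y : V) : Prop :=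
  k * d x y ≤ F x y ∨ (∃ i j, F (R i) (R j) + k * (d x (R i) + d y (R j)) ≤ F x y) ∨
    ((∀ i j, 1 / 1024 * d x y ≤ d x (R i) + d y (R j)) ∧
      ∃ p ∈ M, ∃ q ∈ M, d x p + d y q ≤ 12 * η * d x y)

def Good3 {V : Type} (k η : ℝ) (m : ℕ) (d : V → V → ℝ) (R : Fin 3 → V)
    (rho : Fin 3 → Fin 3 → ℝ) : Prop :=
  ∃ (F : V → V → ℝ) (M : Set V), IsL1 F ∧ (∀ i j, F (R i) (R j) = rho i j) ∧
    (∀ x y, F x y ≤ d x y) ∧ (∀ i, R i ∈ M) ∧ M.ncard ≤ m + 2 ∧
    ∀ x y, Alt k η d F R M x y

theorem good3_limit {V : Type} [Finite V] {k η : ℝ} {m : ℕ} {d : V → V → ℝ} {R : Fin 3 → V}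
    {rho : ℕ → Fin 3 → Fin 3 → ℝ} {rho' : Fin 3 → Fin 3 → ℝ}
    (h : ∀ n, Good3 k η m d R (rho n))
    (hlim : ∀ i j, Tendsto (fun n => rho n i j) atTop (𝓝 (rho' i j))) :
    Good3 k η m d R rho' := by
  choose F M h1 h2 h3 h5 h6 h4 using h
  obtain ⟨G, φ, hG, hφ, hT⟩ := exists_cluster h1 h3
  have hT2 : ∀ x y, Tendsto (fun n => F (φ n) x y) atTop (𝓝 (G x y)) := by
    intro x y
    have := (tendsto_pi_nhds.1 hT) x
    exact (tendsto_pi_nhds.1 this) y
  have c0 : ∀ a b : V, Continuous fun H : V → V → ℝ => H a b := fun a b =>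
    (continuous_apply b).comp (continuous_apply a)
  -- the alternatives for a fixed set of marks are closed
  have hAlt : ∀ (N : Set V) (x y : V), IsClosed {H : V → V → ℝ | Alt k η d H R N x y} := by
    intro N x y
    have e : {H : V → V → ℝ | Alt k η d H R N x y} =
        {H : V → V → ℝ | k * d x y ≤ H x y} ∪ ((⋃ i : Fin 3, ⋃ j : Fin 3,
          {H : V → V → ℝ | H (R i) (R j) + k * (d x (R i) + d y (R j)) ≤ H x y}) ∪
          {H : V → V → ℝ | (∀ i j, 1 / 1024 * d x y ≤ d x (R i) + d y (R j)) ∧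
            ∃ p ∈ N, ∃ q ∈ N, d x p + d y q ≤ 12 * η * d x y}) := by
      ext H
      simp only [Alt, Set.mem_union, Set.mem_iUnion, Set.mem_ofPred_eq]
    rw [e]
    refine (isClosed_le continuous_const (c0 x y)).union (IsClosed.union ?_ isClosed_const)
    refine isClosed_iUnion_of_finite fun i => isClosed_iUnion_of_finite fun j => ?_
    exact isClosed_le ((c0 _ _).add continuous_const) (c0 x y)
  have hcl : IsClosed (⋃ N : {N : Set V // (∀ i, R i ∈ N) ∧ N.ncard ≤ m + 2},
      ⋂ x : V, ⋂ y : V, {H : V → V → ℝ | Alt k η d H R N.1 x y}) :=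
    isClosed_iUnion_of_finite fun N => isClosed_iInter fun x => isClosed_iInter fun y =>
      hAlt N.1 x y
  have hmem := hcl.mem_of_tendsto hT (Eventually.of_forall fun n =>
    Set.mem_iUnion.2 ⟨⟨M (φ n), h5 _, h6 _⟩, Set.mem_iInter.2 fun x => Set.mem_iInter.2 fun y =>
      h4 (φ n) x y⟩)
  obtain ⟨N, hN⟩ := Set.mem_iUnion.1 hmem
  refine ⟨G, N.1, hG, ?_, ?_, N.2.1, N.2.2, fun x y => ?_⟩
  · intro i j
    have e1 := hT2 (R i) (R j)
    have e2 : (fun n => F (φ n) (R i) (R j)) = fun n => rho (φ n) i j := by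
      funext n; exact h2 (φ n) i j
    rw [e2] at e1
    exact tendsto_nhds_unique e1 ((hlim i j).comp hφ.tendsto_atTop)
  · intro x y
    exact le_of_tendsto' (hT2 x y) fun n => h3 (φ n) x y
  · exact Set.mem_iInter.1 (Set.mem_iInter.1 hN x) y

/-- the mixture of the exact embedding and of the collar -/
theorem good3_mix {V : Type} [Finite V] {c η : ℝ} (hc : 0 < c) (hc1 : c ≤ 1) (hη : 0 < η)
    (hη1 : η ≤ 1 / 1024) {m : ℕ} {d d' : V → V → ℝ} (hd : IsMet d) (hd' : IsMet d')
    {R : Fin 3 → V} {rho : Fin 3 → Fin 3 → ℝ} (h0 : ∀ p, rho p p = 0)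
    (hs : ∀ p q, rho p q = rho q p) (ht : ∀ p q r, rho p r ≤ rho p q + rho q r)
    (hle : ∀ p q, rho p q ≤ d (R p) (R q)) (hρ' : ∀ i j, d' (R i) (R j) = rho i j)
    (hle' : ∀ x y, d' x y ≤ d x y)
    (hcase : ∀ x y, d' x y = d x y ∨ ∃ i j, d' x y = d x (R i) + rho i j + d (R j) y)
    (hcen : Cen m d' R) (hiso : Iso c d' R) : Good3 (c * η / 48) η m d R rho := by
  obtain ⟨F1, l1, e1', up1', low1⟩ := hiso
  have e1 : ∀ i j, F1 (R i) (R j) = rho i j := fun i j => (e1' i j).trans (hρ' i j)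
  have up1 : ∀ x y, F1 x y ≤ d x y := fun x y => (up1' x y).trans (hle' x y)
  obtain ⟨M, hM, hRM, hcM⟩ := hcen
  obtain ⟨F2, l2, up2, e2, near2⟩ := H913.collar hd R rho h0 hs ht hle
  have hk0 : 0 < c * η / 48 := by positivity
  have hcη : c * η ≤ 1 / 1024 := by nlinarith
  -- a mark near `x`, unless the excess of `x` is large
  have hmark : ∀ (x : V) (D : ℝ), (∀ i, d' x (R i) - gp d' R i ≤ η * D) →
      ∃ p ∈ (M : Set V), d x p ≤ 6 * η * D := by
    intro x D hD
    obtain ⟨p, hp, i, hi⟩ := hcM x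
    have h1 : d' x p ≤ 6 * η * D := by
      have := hD i
      linarith
    rcases hcase x p with h | ⟨a, b, h⟩
    · exact ⟨p, hp, by rw [← h]; exact h1⟩
    · refine ⟨R a, hRM a, ?_⟩
      have h2 : 0 ≤ rho a b := by rw [← e1 a b]; exact l1.nonneg _ _
      have h3 := hd.nonneg (R b) p
      linarith
  refine ⟨fun x y => 1 / 8 * F1 x y + 7 / 8 * F2 x y, M, ?_, ?_, ?_, hRM, ?_, ?_⟩
  · exact (l1.smul (by norm_num)).add (l2.smul (by norm_num))
  · intro i j
    show 1 / 8 * F1 (R i) (R j) + 7 / 8 * F2 (R i) (R j) = rho i j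
    rw [e1, e2]
    ring
  · intro x y
    show 1 / 8 * F1 x y + 7 / 8 * F2 x y ≤ d x y
    have h1 := up1 x y
    have h2 := up2 x y
    linarith
  · rw [Set.ncard_coe_finset]; exact hM
  · intro x y
    show c * η / 48 * d x y ≤ 1 / 8 * F1 x y + 7 / 8 * F2 x y ∨
      (∃ i j, 1 / 8 * F1 (R i) (R j) + 7 / 8 * F2 (R i) (R j) +
        c * η / 48 * (d x (R i) + d y (R j)) ≤ 1 / 8 * F1 x y + 7 / 8 * F2 x y) ∨
      ((∀ i j, 1 / 1024 * d x y ≤ d x (R i) + d y (R j)) ∧
        ∃ p ∈ (M : Set V), ∃ q ∈ (M : Set V), d x p + d y q ≤ 12 * η * d x y)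
    have hd0 := hd.nonneg x y
    have n1 := l1.nonneg x y
    have n2 := l2.nonneg x y
    by_cases hfar : 1 / 256 * d x y ≤ d' x y
    · by_cases hroot : ∀ i j, 1 / 1024 * d x y ≤ d x (R i) + d y (R j)
      · -- far from the roots
        by_cases hx : ∀ i, d' x (R i) - gp d' R i ≤ η * d x y
        · by_cases hy : ∀ i, d' y (R i) - gp d' R i ≤ η * d x y
          · obtain ⟨p, hp, hp'⟩ := hmark x _ hx
            obtain ⟨q, hq, hq'⟩ := hmark y _ hy
            exact Or.inr (Or.inr ⟨hroot, p, hp, q, hq, by linarith⟩)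
          · left
            push Not at hy
            obtain ⟨i, hi⟩ := hy
            have h1 := low1 y x i
            rw [l1.symm y x, hd'.symm y x] at h1
            have h2 : η * d x y ≤ min (d' x y) (d' y (R i) - gp d' R i) := by
              refine le_min (le_trans ?_ hfar) hi.le
              exact mul_le_mul_of_nonneg_right (by linarith) hd0
            have h3 := mul_le_mul_of_nonneg_left h2 (by positivity : (0 : ℝ) ≤ c / 6)
            have h4 : c / 6 * (η * d x y) = 8 * (c * η / 48 * d x y) := by ring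
            linarith
        · left
          push Not at hx
          obtain ⟨i, hi⟩ := hx
          have h1 := low1 x y i
          have h2 : η * d x y ≤ min (d' x y) (d' x (R i) - gp d' R i) := by
            refine le_min (le_trans ?_ hfar) hi.le
            exact mul_le_mul_of_nonneg_right (by linarith) hd0
          have h3 := mul_le_mul_of_nonneg_left h2 (by positivity : (0 : ℝ) ≤ c / 6)
          have h4 : c / 6 * (η * d x y) = 8 * (c * η / 48 * d x y) := by ring
          linarith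
      · -- both points are near the roots: `rho i j` is large
        left
        push Not at hroot
        obtain ⟨i, j, hij⟩ := hroot
        have hrho : 1 / 256 * d x y - 1 / 1024 * d x y ≤ rho i j := by
          have t1 : d' x y ≤ d' x (R i) + d' (R i) y := hd'.tri _ _ _
          have t2 : d' (R i) y ≤ d' (R i) (R j) + d' (R j) y := hd'.tri _ _ _
          have t3 := hle' x (R i)
          have t4 := hle' (R j) y
          have t5 := hd.symm (R j) y
          rw [hρ'] at t2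
          linarith
        have g1 : F1 (R i) (R j) ≤ F1 (R i) x + F1 x (R j) := l1.tri _ _ _
        have g2 : F1 x (R j) ≤ F1 x y + F1 y (R j) := l1.tri _ _ _
        have g3 : F2 (R i) (R j) ≤ F2 (R i) x + F2 x (R j) := l2.tri _ _ _
        have g4 : F2 x (R j) ≤ F2 x y + F2 y (R j) := l2.tri _ _ _
        have u1 := up1 (R i) x
        have u2 := up1 y (R j)
        have u3 := up2 (R i) x
        have u4 := up2 y (R j)
        have s1 := hd.symm (R i) x
        have a1 := e1 i j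
        have a2 := e2 i j
        have hk : c * η / 48 * d x y ≤ 1 / 1024 * d x y :=
          mul_le_mul_of_nonneg_right (by linarith) hd0
        linarith
    · right; left
      have hlt := not_le.1 hfar
      have hex : ∃ i j, d x (R i) + rho i j + d (R j) y < 1 / 256 * d x y := by
        rcases hcase x y with h | ⟨i, j, h⟩
        · exfalso
          rw [h] at hlt
          linarith
        · exact ⟨i, j, by rw [← h]; exact hlt⟩
      obtain ⟨i, j, hij⟩ := hex
      have p1 := hd.nonneg x (R i)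
      have p2 := hd.nonneg (R j) y
      have r0 : 0 ≤ rho i j := by rw [← e1 i j]; exact l1.nonneg _ _
      have s0 := hd.symm (R j) y
      obtain ⟨p, q, hpq⟩ := near2 x y i j (by linarith)
      refine ⟨p, q, ?_⟩
      rw [e1, e2]
      have t1 : F1 (R p) (R q) ≤ F1 (R p) x + F1 x (R q) := l1.tri _ _ _
      have t2 : F1 x (R q) ≤ F1 x y + F1 y (R q) := l1.tri _ _ _
      have u1 : F1 (R p) x ≤ d (R p) x := up1 _ _
      have u2 : F1 y (R q) ≤ d y (R q) := up1 _ _
      have s1 := hd.symm (R p) x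
      have e := e1 p q
      have q1 := hd.nonneg x (R p)
      have q2 := hd.nonneg y (R q)
      have q3 : c * η / 48 * (d x (R p) + d y (R q)) ≤ 3 / 4 * (d x (R p) + d y (R q)) :=
        mul_le_mul_of_nonneg_right (by linarith) (by linarith)
      linarith

/-- three adjacent roots -/
theorem good3_tri {V : Type} [Finite V] (hS : Short3Stmt) {G : SimpleGraph V} {c η : ℝ}
    (hc : 0 < c) (hc1 : c ≤ 1) (hη : 0 < η) (hη1 : η ≤ 1 / 1024) {m : ℕ} {d : V → V → ℝ}
    (hd : IsMet d) (hG : Gen G d) {R : Fin 3 → V} (hR : TriAdj G R)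
    (hCen : ∀ d : V → V → ℝ, IsMet d → Gen G d → Cen m d R)
    (hIso : ∀ d : V → V → ℝ, IsMet d → Gen G d → Iso c d R)
    {rho : Fin 3 → Fin 3 → ℝ} (h0 : ∀ p, rho p p = 0)
    (hs : ∀ p q, rho p q = rho q p) (ht : ∀ p q r, rho p r ≤ rho p q + rho q r)
    (hle : ∀ p q, rho p q ≤ d (R p) (R q)) : Good3 (c * η / 48) η m d R rho := by
  have hinj : Function.Injective R := by
    intro i j hij
    by_contra hne
    exact (hR i j hne).ne hij
  have hnn : ∀ p q, 0 ≤ rho p q := by
    intro p q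
    have h1 := ht p q p
    rw [h0, hs q p] at h1
    linarith
  refine good3_limit (rho := fun n p q => (1 - 1 / ((n : ℝ) + 1)) * rho p q +
    1 / ((n : ℝ) + 1) * d (R p) (R q)) (fun n => ?_) (fun i j => lim_mix _ _)
  have hn : (0 : ℝ) < 1 / ((n : ℝ) + 1) := by positivity
  have hn1 : 1 / ((n : ℝ) + 1) ≤ 1 := by
    rw [div_le_one (by positivity)]
    have : (0 : ℝ) ≤ n := Nat.cast_nonneg n
    linarith
  set ε : ℝ := 1 / ((n : ℝ) + 1) with hε
  have mm : IsMet fun p q : Fin 3 => (1 - ε) * rho p q + ε * d (R p) (R q) := by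
    refine ⟨fun p => ?_, fun p q hpq => ?_, fun p q => ?_, fun p q r => ?_⟩
    · show (1 - ε) * rho p p + ε * d (R p) (R p) = 0
      rw [h0, hd.self]; ring
    · show 0 < (1 - ε) * rho p q + ε * d (R p) (R q)
      have h1 : 0 ≤ (1 - ε) * rho p q := mul_nonneg (by linarith) (hnn p q)
      have h2 : 0 < ε * d (R p) (R q) := mul_pos hn (hd.pos _ _ fun h => hpq (hinj h))
      linarith
    · show (1 - ε) * rho p q + ε * d (R p) (R q) = (1 - ε) * rho q p + ε * d (R q) (R p)
      rw [hs, hd.symm]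
    · show (1 - ε) * rho p r + ε * d (R p) (R r) ≤
        (1 - ε) * rho p q + ε * d (R p) (R q) + ((1 - ε) * rho q r + ε * d (R q) (R r))
      have h1 := mul_le_mul_of_nonneg_left (ht p q r) (by linarith : (0 : ℝ) ≤ 1 - ε)
      have h2 := mul_le_mul_of_nonneg_left (hd.tri (R p) (R q) (R r)) hn.le
      linarith
  have hup : ∀ p q, (1 - ε) * rho p q + ε * d (R p) (R q) ≤ d (R p) (R q) := by
    intro p q
    have h1 := mul_le_mul_of_nonneg_left (hle p q) (by linarith : (0 : ℝ) ≤ 1 - ε)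
    linarith
  obtain ⟨d', md, gd, hρ', hle', hcase⟩ := hS V G d hd hG R hR _ mm hup
  exact good3_mix hc hc1 hη hη1 hd md mm.self mm.symm mm.tri hup hρ' hle' hcase
    (hCen d' md gd) (hIso d' md gd)

/-- the three cases of the lower bound, with marks -/
def TriM {V : Type} (k η : ℝ) (d F : V → V → ℝ) (R M : Set V) (x y : V) : Prop :=
  k * d x y ≤ F x y ∨ (∃ r ∈ R, ∃ s ∈ R, F r s + k * (d x r + d y s) ≤ F x y) ∨
    ((∀ r ∈ R, ∀ s ∈ R, 1 / 1024 * d x y ≤ d x r + d y s) ∧
      ∃ p ∈ M, ∃ q ∈ M, d x p + d y q ≤ 12 * η * d x y)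

/-- [G3] the conclusion -/
def G3Concl {V : Type} (m : ℕ) (c η : ℝ) (d : V → V → ℝ) (R : Set V) : Prop :=
  ∀ ρ : V → V → ℝ, IsL1 ρ → (∀ x ∈ R, ∀ y ∈ R, ρ x y ≤ d x y) →
    ∃ (F : V → V → ℝ) (M : Set V), IsL1 F ∧ (∀ x ∈ R, ∀ y ∈ R, F x y = ρ x y) ∧
      (∀ x y, F x y ≤ d x y) ∧ R ⊆ M ∧ M.ncard ≤ m + 2 ∧
      ∀ x y, TriM (c * η / 48) η d F R M x y

/-- **[G3]** from [G1] and [G2] -/
theorem g3 {m : ℕ} {c η : ℝ} (hc : 0 < c) (hc1 : c ≤ 1) (hη : 0 < η) (hη1 : η ≤ 1 / 1024)
    {V : Type} [Finite V] {G : SimpleGraph V} (hconn : G.Connected) (hE : EdgeExact G c)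
    {d : V → V → ℝ} (hd : IsMet d) (hG : Gen G d) {R : Set V} (hR : R.ncard ≤ 3)
    (hcl : ∀ u ∈ R, ∀ v ∈ R, u ≠ v → G.Adj u v)
    (hCen : R.ncard = 3 → ∀ T : Fin 3 → V, TriAdj G T → ∀ d : V → V → ℝ, IsMet d → Gen G d →
      Cen m d T)
    (hIso : ∀ T : Fin 3 → V, TriAdj G T → ∀ d : V → V → ℝ, IsMet d → Gen G d → Iso c d T) :
    G3Concl m c η d R := by
  intro ρ hρ hρd
  by_cases h : R.ncard = 3
  · obtain ⟨x, y, z, hxy, hxz, hyz, rfl⟩ := Set.ncard_eq_three.1 h
    let T : Fin 3 → V := ![x, y, z]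
    have hRS : Set.range T = {x, y, z} := by
      ext v
      constructor
      · rintro ⟨i, rfl⟩
        fin_cases i
        · exact Or.inl rfl
        · exact Or.inr (Or.inl rfl)
        · exact Or.inr (Or.inr rfl)
      · rintro (rfl | rfl | rfl)
        · exact ⟨0, rfl⟩
        · exact ⟨1, rfl⟩
        · exact ⟨2, rfl⟩
    have hmem : ∀ i, T i ∈ ({x, y, z} : Set V) := fun i => hRS ▸ Set.mem_range_self i
    have hinj : ∀ i j, i ≠ j → T i ≠ T j := by
      intro i j hij
      fin_cases i <;> fin_cases j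
      · exact (hij rfl).elim
      · exact hxy
      · exact hxz
      · exact hxy.symm
      · exact (hij rfl).elim
      · exact hyz
      · exact hxz.symm
      · exact hyz.symm
      · exact (hij rfl).elim
    have hadj : TriAdj G T := fun i j hij => hcl _ (hmem i) _ (hmem j) (hinj i j hij)
    obtain ⟨F, M, h1, h2, h3, h5, h6, h4⟩ := good3_tri H500.short3 hc hc1 hη hη1 hd hG hadj
      (hCen h T hadj) (hIso T hadj)
      (rho := fun i j => ρ (T i) (T j)) (fun p => hρ.self _) (fun p q => hρ.symm _ _)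
      (fun p q r => hρ.tri _ _ _) (fun p q => hρd _ (hmem p) _ (hmem q))
    refine ⟨F, M, h1, ?_, h3, ?_, h6, fun u v => ?_⟩
    · intro u hu v hv
      rw [← hRS] at hu hv
      obtain ⟨i, rfl⟩ := hu
      obtain ⟨j, rfl⟩ := hv
      exact h2 i j
    · intro u hu
      rw [← hRS] at hu
      obtain ⟨i, rfl⟩ := hu
      exact h5 i
    · rcases h4 u v with h | ⟨i, j, h⟩ | ⟨h, h'⟩
      · exact Or.inl h
      · exact Or.inr (Or.inl ⟨T i, hmem i, T j, hmem j, h⟩)
      · refine Or.inr (Or.inr ⟨?_, h'⟩)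
        intro r hr s hs
        rw [← hRS] at hr hs
        obtain ⟨i, rfl⟩ := hr
        obtain ⟨j, rfl⟩ := hs
        exact h i j
  · have hno : R.ncard = 3 → ¬ IsMinor K33 (H341W.capG G R) := fun h' => (h h').elim
    obtain ⟨F, h1, h2, h3, h4⟩ := s1_of H500.short3 hc hc1 hE hconn hd hG hR hcl hno hρ hρd
    refine ⟨F, R, h1, h2, h3, subset_rfl, by omega, fun u v => ?_⟩
    have hk : c * η / 48 ≤ c / 12288 := by nlinarith
    rcases tri3_mono (k' := c * η / 48) hk id hd (h4 u v) with h | h | ⟨h, _⟩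
    · exact Or.inl h
    · exact Or.inr (Or.inl h)
    · exact h.elim

end Vale.Agent.P235.K5.GX.H696
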