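import Vale.Agent.P235.K5.GX.H696.G3
import Vale.Agent.P235.K5.GX.Defs
import Vale.Agent.P235.K5.GX.H473.TriM

/-!
P235, line GX, row [G3] (helper696): the literal `G3Stmt` from `CentreMStmt` and `TriMStmt`.
-/

set_option autoImplicit false

namespace Vale.Agent.P235.K5.GX.H696

open SimpleGraph Vale.Agent.P235 Vale.Agent.P235.H134 Vale.Agent.P235.H56 Vale.Agent.P235.K5
open Vale.Agent.P235.K5.SX.H696

/-- [G3] from [G1] and [G2] -/
theorem g3Stmt' (h1 : CentreMStmt) (h2 : TriMStmt) : G3Stmt := by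
  intro m c η hc hc1 hη hη1 V _ G R hQ hR hcl d hd hG ρ hρ hρd
  obtain ⟨hconn, hE, hno⟩ := hQ
  obtain ⟨F, M, a1, a2, a3, a4, a5, a6⟩ := g3 (m := m) (η := η / 12) hc hc1 (by linarith)
    (by linarith) hconn hE hd hG hR hcl
    (fun h T hT d hd hG => h1 m V G d hd hG T (by
      intro i j hij
      by_contra hne
      exact (hT i j hne).ne hij) (hno h))
    (fun T hT d hd hG => by
      obtain ⟨F, f1, f2, f3, f4⟩ := h2 V G c hc hE d hd hG T hT
      refine ⟨F, f1, f2, f4, fun x y i => ?_⟩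
      have h3 := f3 x y i
      have h4 := f1.nonneg x y
      rcases le_total 0 (min (d x y) (d x (T i) - gp d T i)) with h | h
      · have h5 : c / 6 * min (d x y) (d x (T i) - gp d T i) ≤
          c / 3 * min (d x y) (d x (T i) - gp d T i) :=
          mul_le_mul_of_nonneg_right (by linarith) h
        exact h5.trans h3
      · exact (mul_nonpos_of_nonneg_of_nonpos (by positivity) h).trans h4) ρ hρ hρd
  refine ⟨F, M, a1, a2, a3, a4, by omega, fun x y => ?_⟩
  have hk : c * η / 12288 ≤ c * (η / 12) / 48 := by nlinarith [mul_pos hc hη]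
  have hd0 := hd.nonneg x y
  rcases a6 x y with h | ⟨r, hr, s, hs, h⟩ | ⟨h, p, hp, q, hq, h'⟩
  · exact Or.inl ((mul_le_mul_of_nonneg_right hk hd0).trans h)
  · refine Or.inr (Or.inl ⟨r, hr, s, hs, le_trans ?_ h⟩)
    have := mul_le_mul_of_nonneg_right hk (add_nonneg (hd.nonneg x r) (hd.nonneg y s))
    linarith
  · refine Or.inr (Or.inr ⟨h, p, hp, q, hq, h'.trans_eq ?_⟩)
    ring

/-- [G2], the literal -/
theorem triMStmt : TriMStmt := fun _ _ _ _ hc hE _ hd hG _ hR => H473.triIsoM hc hE hd hG hR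

/-- **[G3]** from [G1] -/
theorem g3Stmt (h1 : CentreMStmt) : G3Stmt := g3Stmt' h1 triMStmt

end Vale.Agent.P235.K5.GX.H696
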